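import Vale.Agent.P242.CDDefs
import Vale.Agent.P242.H373.AEDefs
import Vale.Agent.P242.H373.Dense

open MeasureTheory Set Metric Filter Topology Vale.Agent.P242 Vale.Agent.P242.H124
  Vale.Agent.P242.H373
open scoped ENNReal

universe u

/-- (1) For `n ≥ 2` and `ε > 0` there is `δ = δ(n, ε) > 0` such that in every `CD(K, n)` or
`MCP(K, n)` space, of any curvature bound `K`:
(a) if `B(p, R)` is `δ`-almost Euclidean at all its points and scales and `K R² ≥ -δ`, then
`B(p, δ R)` embeds in Hilbert space with bi-Lipschitz constant `1 + ε`;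
(b) if `K ≥ 0` and this holds for arbitrarily large `R`, then the whole space embeds in Hilbert
space with constant `1 + ε`;
(c) if `m = H^n` and the balls of centre in an open set `W` and radius `r ≤ r₀` are `δ r`-close to
Euclidean balls, then every nonempty open subset of `W` contains a nonempty open set which embeds in
Hilbert space with constant `1 + ε` (no assumption on volumes).
(2) If balls about `p` are `δ`-almost Euclidean for every `δ > 0`, then for every `ε > 0` some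
neighbourhood of `p` embeds in Hilbert space with bi-Lipschitz constant `1 + ε`. -/
theorem Vale.Agent.Results.P242.HilbertEmbeddingAlmostIsometric.result :
    (∀ n : ℕ, 2 ≤ n → ∀ ε : ℝ, 0 < ε → ∃ δ : ℝ, 0 < δ ∧
      ∀ (X : Type u) [MetricSpace X] [MeasurableSpace X] [BorelSpace X] (K : ℝ),
        (∀ m : Measure X, CDSpace X K n m → ∀ (p : X) (R V : ℝ), 0 < R → 0 < V → -δ ≤ K * R ^ 2 →
          AlmostEuclideanBall m n δ V p R → EmbedsInHilbert (ball p (δ * R)) (1 + ε)) ∧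
        (∀ m : Measure X, CDSpace X K n m → 0 ≤ K → ∀ p : X,
          (∀ R₀ : ℝ, ∃ R V : ℝ, R₀ < R ∧ 0 < V ∧ AlmostEuclideanBall m n δ V p R) →
          EmbedsInHilbert (univ : Set X) (1 + ε)) ∧
        (CDSpace X K n (μH[(n : ℝ)] : Measure X) → ∀ (W : Set X) (r₀ : ℝ), IsOpen W → 0 < r₀ →
          (∀ x ∈ W, ∀ r : ℝ, 0 < r → r ≤ r₀ → GHClose n δ x r) →
          ∀ W' : Set X, IsOpen W' → W' ⊆ W → W'.Nonempty →
            ∃ U : Set X, IsOpen U ∧ U ⊆ W' ∧ U.Nonempty ∧ EmbedsInHilbert U (1 + ε))) ∧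
    ∀ (X : Type u) [MetricSpace X] [MeasurableSpace X] [BorelSpace X] (K : ℝ) (n : ℕ)
      (m : Measure X), 2 ≤ n → CDSpace X K n m → ∀ p : X,
      (∀ δ : ℝ, 0 < δ → ∃ R V : ℝ, 0 < R ∧ 0 < V ∧ AlmostEuclideanBall m n δ V p R) →
      ∀ ε : ℝ, 0 < ε → ∃ U : Set X, IsOpen U ∧ p ∈ U ∧ EmbedsInHilbert U (1 + ε) := by
  refine ⟨fun n hn ε hε => ?_, fun X _ _ _ K n m hn hX p hreg ε hε => ?_⟩
  · obtain ⟨δ, hδ0, hδ1, h⟩ := almost_isometric.{u} hn hε
    refine ⟨δ, hδ0, fun X _ _ _ K => ⟨?_, ?_, ?_⟩⟩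
    · rintro m ⟨hcomp, hsep, hfin, hpos, hK⟩ p R V hR hV hKR ⟨h1, h2⟩
      exact h m K R V hfin hpos hK hR hKR hV p h1 h2
    · rintro m ⟨hcomp, hsep, hfin, hpos, hK⟩ hK0 p hgrow
      exact global_of hδ0 hε (fun R V hR hKR hV p h1 h2 => h m K R V hfin hpos hK hR hKR hV p h1 h2)
        hK0 p hgrow
    · rintro ⟨hcomp, hsep, hfin, hpos, hK⟩ W r₀ hW hr₀ hGH W' hW' hW'W hne
      exact generic_of hn hδ0 hδ1 (fun R V hR hKR hV p h1 h2 =>
        h _ K R V hfin hpos hK hR hKR hV p h1 h2) hfin hpos hK hr₀ hGH hW' hW'W hne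
  · obtain ⟨hcomp, hsep, hfin, hpos, hK⟩ := hX
    exact regular_points hn hfin hpos hK hreg hε
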