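import Vale.Agent.P242.CDDefs
import Vale.Agent.P242.H373.Defs
import Vale.Agent.P242.H373.Main

open MeasureTheory Set Metric Filter Topology Vale.Agent.P242 Vale.Agent.P242.H124
  Vale.Agent.P242.H373
open scoped ENNReal

universe u

/-- Here `Noncollapsed X K n` means that `X` is a complete separable metric space whose
`n`-dimensional Hausdorff measure is finite on balls, has full support and satisfies `CD(K, n)` or
`MCP(K, n)`.
(1) Every point of such a space has a neighbourhood which embeds bi-Lipschitzly in Hilbert space.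
(2) Scale invariant form. For `n ≥ 2`, `Λ ≥ 0` and `v, D > 0` there is `L = L(n, Λ, v, D)` such
that every ball `B(p, D ℓ)` with `K ℓ² ≥ -Λ` and `H^n(B(p, ℓ)) ≥ v ℓ^n` embeds in Hilbert space
with bi-Lipschitz constant `L`.
(3) The same for any reference measure `m`, any real `N > 1` and the subsets `S` of `B(p, D ℓ)` with
`m(B(x, r)) ≤ b r^N` for `x ∈ S`, `r ≤ r₁ ℓ`.
(4) For `n ≥ 2`, `v > 0` there is `L = L(n, v)` such that for all `K`, `X` and `p ∈ X`: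
(a) if `H^n(B(p, r)) ≥ v r^n` for arbitrarily small `r`, then a neighbourhood of `p` embeds in
Hilbert space with constant `L`, and so does, globally, every tangent of `X` at `p`;
(b) if `K ≥ 0` and `H^n(B(p, R)) ≥ v R^n` for arbitrarily large `R`, then the whole space `X` and
all its scaled limits (tangents, tangents at infinity) embed in Hilbert space with constant `L`. -/
theorem Vale.Agent.Results.P242.HilbertEmbeddingScaleInvariant.result :
    (∀ (X : Type u) [MetricSpace X] [MeasurableSpace X] [BorelSpace X] (K : ℝ) (n : ℕ), 2 ≤ n →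
      Noncollapsed X K n → ∀ p : X, ∃ (U : Set X) (L : ℝ), IsOpen U ∧ p ∈ U ∧ 1 ≤ L ∧
        EmbedsInHilbert U L) ∧
    (∀ n : ℕ, 2 ≤ n → ∀ Λ v D : ℝ, 0 ≤ Λ → 0 < v → 0 < D → ∃ L : ℝ, 1 ≤ L ∧
      ∀ (X : Type u) [MetricSpace X] [MeasurableSpace X] [BorelSpace X] (K ℓ : ℝ),
        Noncollapsed X K n → 0 < ℓ → -Λ ≤ K * ℓ ^ 2 →
        ∀ p : X, ENNReal.ofReal (v * ℓ ^ n) ≤ (μH[(n : ℝ)] : Measure X) (ball p ℓ) →
          EmbedsInHilbert (ball p (D * ℓ)) L) ∧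
    (∀ N : ℝ, 1 < N → ∀ Λ b v D r₁ : ℝ, 0 ≤ Λ → 0 < b → 0 < v → 0 < D → 0 < r₁ →
      ∃ L : ℝ, 1 ≤ L ∧
      ∀ (X : Type u) [MetricSpace X] [CompleteSpace X] [TopologicalSpace.SeparableSpace X]
        [MeasurableSpace X] [BorelSpace X] (m : Measure X) (K ℓ : ℝ),
        (∀ (x : X) (r : ℝ), m (ball x r) < ∞) → (∀ (x : X) (r : ℝ), 0 < r → 0 < m (ball x r)) →
        (IsCD K N m ∨ IsMCP K N m) → 0 < ℓ → -Λ ≤ K * ℓ ^ 2 →
        ∀ (p : X) (S : Set X), S ⊆ ball p (D * ℓ) → ENNReal.ofReal (v * ℓ ^ N) ≤ m (ball p ℓ) →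
          UpperRegularOn m N S b (r₁ * ℓ) → EmbedsInHilbert S L) ∧
    ∀ n : ℕ, 2 ≤ n → ∀ v : ℝ, 0 < v → ∃ L : ℝ, 1 ≤ L ∧
      ∀ (X : Type u) [MetricSpace X] [MeasurableSpace X] [BorelSpace X] (K : ℝ),
      Noncollapsed X K n → ∀ p : X,
        ((∀ δ : ℝ, 0 < δ → ∃ r : ℝ, 0 < r ∧ r < δ ∧
            ENNReal.ofReal (v * r ^ n) ≤ (μH[(n : ℝ)] : Measure X) (ball p r)) →
          (∃ U : Set X, IsOpen U ∧ p ∈ U ∧ EmbedsInHilbert U L) ∧
          ∀ (Y : Type u) [MetricSpace Y] [TopologicalSpace.SeparableSpace Y] (q : Y) (r : ℕ → ℝ),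
            (∀ j, 0 < r j) → Tendsto r atTop (𝓝 0) → IsScaledLimit p r q →
              EmbedsInHilbert (univ : Set Y) L) ∧
        (0 ≤ K → (∀ R₀ : ℝ, ∃ R : ℝ, R₀ < R ∧
            ENNReal.ofReal (v * R ^ n) ≤ (μH[(n : ℝ)] : Measure X) (ball p R)) →
          EmbedsInHilbert (univ : Set X) L ∧
          ∀ (Y : Type u) [MetricSpace Y] [TopologicalSpace.SeparableSpace Y] (q : Y) (r : ℕ → ℝ),
            (∀ j, 0 < r j) → IsScaledLimit p r q → EmbedsInHilbert (univ : Set Y) L) := by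
  refine ⟨fun X _ _ _ K n hn hX p => ?_, fun n hn Λ v D hΛ hv hD => ?_,
    fun N hN Λ b v D r₁ hΛ hb hv hD hr₁ => ?_, fun n hn v hv => universal_constant.{u} hn hv⟩
  · obtain ⟨hcomp, hsep, hfin, hpos, hK⟩ := hX
    have hv : 0 < (μH[(n : ℝ)] : Measure X).real (ball p 1) :=
      ENNReal.toReal_pos (hpos p 1 one_pos).ne' (hfin p 1).ne
    obtain ⟨L, hL, h⟩ := noncollapsed.{u} K hn hv (D := 1) one_pos
    exact ⟨ball p 1, L, isOpen_ball, mem_ball_self one_pos, hL,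
      h hfin hpos hK p (ENNReal.ofReal_toReal (hfin p 1).ne).le⟩
  · obtain ⟨L, hL, h⟩ := noncollapsed_scale.{u} hn hΛ hv hD
    exact ⟨L, hL, fun X _ _ _ K ℓ hX hℓ hK p hp => by
      obtain ⟨hcomp, hsep, hfin, hpos, hC⟩ := hX
      exact h K ℓ hfin hpos hC hℓ hK p hp⟩
  · obtain ⟨L, hL, h⟩ := master_scale.{u} hN hΛ hb hv hD hr₁
    exact ⟨L, hL, fun X _ _ _ _ _ m K ℓ hfin hpos hK hℓ hKℓ p S hS hp hr =>
      h m K ℓ hfin hpos hK hℓ hKℓ p S hS hp hr⟩
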