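import Vale.Agent.P242.CDDefs
import Vale.Agent.P242.H124.Final

open MeasureTheory Set Metric Vale.Agent.P242 Vale.Agent.P242.H124
open scoped ENNReal

universe u

/-- (1) Uniform embedding of noncollapsed spaces. For all `K`, `n ≥ 2`, `v, D > 0` there is
`L = L(K, n, v, D)` such that in every complete separable metric space `X` whose `n`-dimensional
Hausdorff measure is finite on balls, has full support and satisfies the curvature-dimension
condition `CD(K, n)` or the measure contraction property `MCP(K, n)`, every ball `B(p, D)` with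
`H^n(B(p, 1)) ≥ v` embeds in Hilbert space with bi-Lipschitz constant `L`.
(2) The same for any reference measure `m`, any real `N > 1` and all subsets `S` of `B(p, D)` with
`m(B(x, r)) ≤ b r^N` for `x ∈ S`, `r ≤ r₁`.
(3) In particular every point of a space as in (1) has a neighbourhood which embeds
bi-Lipschitzly in Hilbert space. -/
theorem Vale.Agent.Results.P242.HilbertEmbeddingUniform.result :
    (∀ (K : ℝ) (n : ℕ), 2 ≤ n → ∀ v D : ℝ, 0 < v → 0 < D → ∃ L : ℝ, 1 ≤ L ∧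
      ∀ (X : Type u) [MetricSpace X] [CompleteSpace X] [TopologicalSpace.SeparableSpace X]
        [MeasurableSpace X] [BorelSpace X],
        (∀ (x : X) (r : ℝ), (μH[(n : ℝ)] : Measure X) (ball x r) < ∞) →
        (∀ (x : X) (r : ℝ), 0 < r → 0 < (μH[(n : ℝ)] : Measure X) (ball x r)) →
        (IsCD K n (μH[(n : ℝ)] : Measure X) ∨ IsMCP K n (μH[(n : ℝ)] : Measure X)) →
        ∀ p : X, ENNReal.ofReal v ≤ (μH[(n : ℝ)] : Measure X) (ball p 1) →
          EmbedsInHilbert (ball p D) L) ∧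
    (∀ K N : ℝ, 1 < N → ∀ b v D r₁ : ℝ, 0 < b → 0 < v → 0 < D → 0 < r₁ → ∃ L : ℝ, 1 ≤ L ∧
      ∀ (X : Type u) [MetricSpace X] [CompleteSpace X] [TopologicalSpace.SeparableSpace X]
        [MeasurableSpace X] [BorelSpace X] (m : Measure X),
        (∀ (x : X) (r : ℝ), m (ball x r) < ∞) → (∀ (x : X) (r : ℝ), 0 < r → 0 < m (ball x r)) →
        (IsCD K N m ∨ IsMCP K N m) →
        ∀ (p : X) (S : Set X), S ⊆ ball p D → ENNReal.ofReal v ≤ m (ball p 1) →
          UpperRegularOn m N S b r₁ → EmbedsInHilbert S L) ∧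
    ∀ (X : Type u) [MetricSpace X] [CompleteSpace X] [TopologicalSpace.SeparableSpace X]
      [MeasurableSpace X] [BorelSpace X] (K : ℝ) (n : ℕ), 2 ≤ n →
      (∀ (x : X) (r : ℝ), (μH[(n : ℝ)] : Measure X) (ball x r) < ∞) →
      (∀ (x : X) (r : ℝ), 0 < r → 0 < (μH[(n : ℝ)] : Measure X) (ball x r)) →
      (IsCD K n (μH[(n : ℝ)] : Measure X) ∨ IsMCP K n (μH[(n : ℝ)] : Measure X)) →
      ∀ p : X, ∃ (U : Set X) (L : ℝ), IsOpen U ∧ p ∈ U ∧ 1 ≤ L ∧ EmbedsInHilbert U L := by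
  refine ⟨fun K n hn v D hv hD => ?_, fun K N hN b v D r₁ hb hv hD hr₁ => ?_,
    fun X _ _ _ _ _ K n hn hfin hpos hK p => ?_⟩
  · obtain ⟨L, hL, h⟩ := noncollapsed.{u} K hn hv hD
    exact ⟨L, hL, fun X _ _ _ _ _ hfin hpos hK p hp => h hfin hpos hK p hp⟩
  · obtain ⟨L, hL, h⟩ := master.{u} K hN hb hv hD hr₁
    exact ⟨L, hL, fun X _ _ _ _ _ m hfin hpos hK p S hS hp hr => h m hfin hpos hK p S hS hp hr⟩
  · have hv : 0 < (μH[(n : ℝ)] : Measure X).real (ball p 1) :=
      ENNReal.toReal_pos (hpos p 1 one_pos).ne' (hfin p 1).ne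
    obtain ⟨L, hL, h⟩ := noncollapsed.{u} K hn hv (D := 1) one_pos
    exact ⟨ball p 1, L, isOpen_ball, mem_ball_self one_pos, hL,
      h hfin hpos hK p (ENNReal.ofReal_toReal (hfin p 1).ne).le⟩
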